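import Vale.Agent.P042.H74.AnW

set_option autoImplicit false

/-!
P042, block [D]: the number of residues singular at all primes of a set `S`, and the Rankin tail
of the inclusion-exclusion of the sieve weight.
-/

namespace Vale.Agent.P042.H245
open Polynomial Finset Vale.Agent.P042.H74

/-- number of residues mod `p` at which the derivative vanishes -/
theorem sing_card (f : ℤ[X]) (k p : ℕ) (hp : p.Prime) (hk1 : 1 ≤ k) (hdeg : f.natDegree = k)
    (hkp : k < p) (hnc : ∃ j : ℕ, 1 ≤ j ∧ ¬ (p : ℤ) ∣ f.coeff j) :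
    ((range p).filter (fun r : ℕ => (p : ℤ) ∣ (derivative f).eval (r : ℤ))).card ≤ k - 1 := by
  classical
  have : Fact p.Prime := ⟨hp⟩
  set g : (ZMod p)[X] := f.map (Int.castRingHom (ZMod p)) with hg
  have hgd : g.natDegree ≤ k := natDegree_map_le.trans hdeg.le
  obtain ⟨j, hj1, hj⟩ := hnc
  have hgj : g.coeff j ≠ 0 := by
    rw [hg, coeff_map]
    intro h0
    apply hj
    rw [← ZMod.intCast_zmod_eq_zero_iff_dvd]
    simpa using h0
  have hder : derivative g ≠ 0 := by
    intro h
    have h1 : (derivative g).coeff (j - 1) = 0 := by rw [h, coeff_zero]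
    have hj' : j - 1 + 1 = j := by omega
    rw [coeff_derivative, hj'] at h1
    have hjk : j ≤ k := by
      by_contra hlt
      push Not at hlt
      exact hgj (coeff_eq_zero_of_natDegree_lt (lt_of_le_of_lt hgd hlt))
    have h3 : (((j - 1 : ℕ) : ZMod p) + 1) ≠ 0 := by
      have h4 : (((j - 1 : ℕ) : ZMod p) + 1) = ((j : ℕ) : ZMod p) := by
        conv_rhs => rw [← hj']
        push_cast
        ring
      rw [h4]
      intro h5
      rw [ZMod.natCast_eq_zero_iff] at h5
      exact absurd (Nat.le_of_dvd (by omega) h5) (by omega)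
    exact (mul_ne_zero hgj h3) h1
  have hsub : ((range p).filter (fun r : ℕ => (p : ℤ) ∣ (derivative f).eval (r : ℤ))).card ≤
      (derivative g).roots.toFinset.card := by
    refine card_le_card_of_injOn (fun r : ℕ => (r : ZMod p)) ?_ ?_
    · intro r hr
      have hr' := mem_filter.1 (mem_coe.1 hr)
      rw [mem_coe, Multiset.mem_toFinset, mem_roots hder, IsRoot.def, hg, derivative_map]
      have h1 := (ZMod.intCast_zmod_eq_zero_iff_dvd ((derivative f).eval (r : ℤ)) p).2 hr'.2
      have h2 : eval (r : ZMod p) (map (Int.castRingHom (ZMod p)) (derivative f)) =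
          (((derivative f).eval (r : ℤ) : ℤ) : ZMod p) := by
        simp
      rw [h2]
      exact h1
    · intro a ha b hb hab
      have ha' := mem_range.1 (mem_filter.1 (mem_coe.1 ha)).1
      have hb' := mem_range.1 (mem_filter.1 (mem_coe.1 hb)).1
      have h1 := (ZMod.natCast_eq_natCast_iff' a b p).1 hab
      rwa [Nat.mod_eq_of_lt ha', Nat.mod_eq_of_lt hb'] at h1
  refine hsub.trans ((Multiset.toFinset_card_le _).trans ((card_roots' _).trans ?_))
  exact (natDegree_derivative_le g).trans (by omega)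

/-- `f` is not constant mod `p` if `p > R` and the content of `f` divides `R` -/
theorem nonconst_of_content (f : ℤ[X]) (R p : ℕ) (hR : 1 ≤ R) (hRp : R < p)
    (hcont : ∀ g : ℤ, (∀ j : ℕ, 1 ≤ j → g ∣ f.coeff j) → g ∣ (R : ℤ)) :
    ∃ j : ℕ, 1 ≤ j ∧ ¬ (p : ℤ) ∣ f.coeff j := by
  by_contra hcon
  push Not at hcon
  have h1 := hcont (p : ℤ) hcon
  have h2 : p ∣ R := by exact_mod_cast h1
  exact absurd (Nat.le_of_dvd hR h2) (by omega)

/-- the Chinese remainder bound for `ZS` -/
theorem ZS_card (f : ℤ[X]) (S : Finset ℕ) (K : ℕ) (hS : ∀ p ∈ S, p.Prime)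
    (hb : ∀ p ∈ S, ((range p).filter (fun r : ℕ => (p : ℤ) ∣ (derivative f).eval (r : ℤ))).card ≤ K) :
    (ZS f S).card ≤ K ^ S.card := by
  classical
  have h1 : (ZS f S).card ≤ (S.pi (fun p => (range p).filter
      (fun r : ℕ => (p : ℤ) ∣ (derivative f).eval (r : ℤ)))).card := by
    refine card_le_card_of_injOn (fun r : ℕ => fun p (_ : p ∈ S) => r % p) ?_ ?_
    · intro r hr
      rw [mem_coe, mem_pi]
      intro p hp
      have hr' := (mem_filter.1 (mem_coe.1 hr)).2 p hp
      have hp0 := (hS p hp).pos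
      rw [mem_filter, mem_range]
      refine ⟨Nat.mod_lt _ hp0, ?_⟩
      refine (eval_dvd_congr (derivative f) p _ _ ?_).1 hr'
      have h2 : ((r % p : ℕ) : ℤ) = (r : ℤ) % (p : ℤ) := by push_cast; rfl
      rw [h2]
      exact Int.dvd_self_sub_emod
    · intro a ha b hb' hab
      have ha' := mem_range.1 (mem_filter.1 (mem_coe.1 ha)).1
      have hb'' := mem_range.1 (mem_filter.1 (mem_coe.1 hb')).1
      have h2 : ∀ p ∈ S, a % p = b % p := by
        intro p hp
        have h3 := congrFun (congrFun hab p) hp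
        simpa using h3
      have h3 : a ≡ b [MOD ∏ p ∈ S, p] := by
        rw [Nat.modEq_iff_dvd]
        have h4 : (((∏ p ∈ S, p : ℕ)) : ℤ) = ∏ p ∈ S, (p : ℤ) := by push_cast; rfl
        rw [h4]
        refine Finset.prod_dvd_of_coprime ?_ ?_
        · intro p hp q hq hpq
          have := (Nat.coprime_primes (hS p hp) (hS q hq)).2 hpq
          exact Nat.isCoprime_iff_coprime.2 this
        · intro p hp
          exact (Nat.modEq_iff_dvd.1 (h2 p hp))
      exact Nat.ModEq.eq_of_lt_of_lt h3 ha' hb''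
  refine h1.trans ?_
  rw [card_pi]
  exact (prod_le_pow_card _ _ _ hb)

end Vale.Agent.P042.H245
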