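import Vale.Agent.P042.H74.AnW
import Vale.Agent.P042.H739.Final

set_option autoImplicit false

/-!
P042: the primes of the sieve weight and the weighted complete sums as a function of `f` and `P`.
-/

namespace Vale.Agent.P042.H245
open Polynomial Finset Vale.Agent.P042.SS Vale.Agent.P042.H74

open Classical in
/-- the primes of the sieve weight -/
noncomputable def PPf (C1 : ℝ) (f : ℤ[X]) (P : ℝ) : Finset ℕ :=
  (range (⌊P ^ C1⌋₊ + 1)).filter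
    (fun p => p.Prime ∧ f.natDegree < p ∧ ∃ j : ℕ, 1 ≤ j ∧ ¬ (p : ℤ) ∣ f.coeff j)

theorem mem_PPf {C1 : ℝ} {f : ℤ[X]} {P : ℝ} {p : ℕ} : p ∈ PPf C1 f P ↔
    p.Prime ∧ f.natDegree < p ∧ (∃ j : ℕ, 1 ≤ j ∧ ¬ (p : ℤ) ∣ f.coeff j) ∧ p ≤ ⌊P ^ C1⌋₊ := by
  classical
  simp only [PPf, mem_filter, mem_range, Nat.lt_succ_iff]
  tauto

theorem le_of_mem_PPf {C1 : ℝ} {f : ℤ[X]} {P : ℝ} {p : ℕ} (hP : 0 ≤ P) (hp : p ∈ PPf C1 f P) :
    (p : ℝ) ≤ P ^ C1 :=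
  (Nat.le_floor_iff (Real.rpow_nonneg hP C1)).1 (mem_PPf.1 hp).2.2.2

/-- the weighted complete sums -/
noncomputable def GWf (C1 : ℝ) : H739.GwTy := fun f P a q => GamW f (PPf C1 f P) a q

end Vale.Agent.P042.H245
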