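import Vale.Agent.P042.MathlibUsed

set_option autoImplicit false

/-!
P042, block [D]: the parameters of the circle method with sieve weights.
-/

namespace Vale.Agent.P042.H245
open Finset

theorem half_le_floor (x : ℝ) (hx : 1 ≤ x) : x / 2 ≤ (⌊x⌋₊ : ℝ) := by
  have h1 : x < (⌊x⌋₊ : ℝ) + 1 := Nat.lt_floor_add_one x
  have h2 : (1 : ℝ) ≤ (⌊x⌋₊ : ℝ) := by
    have : 1 ≤ ⌊x⌋₊ := Nat.le_floor (by simpa using hx)
    exact_mod_cast this
  by_cases h : x ≤ 2
  · linarith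
  · push Not at h
    linarith

/-- the last inequality of AN6 -/
theorem an6_fourth (k : ℕ) (b C1 P e0 : ℝ) (hC1 : 1 ≤ C1) (hb0 : 0 < b) (hP0 : 0 < P)
    (hElo : Real.exp (b * P) / 2 ≤ e0) (hEhi : e0 ≤ Real.exp (b * P))
    (hP5 : 16 * C1 / b ≤ P) (hP6 : (16 * C1 ^ 2 * (k + 1) / b) ^ 2 ≤ P) :
    e0 * Real.exp (-(2 * b * P)) + 2 * (e0 ^ (-(1 / (2 * C1))) *
        Real.exp (k * ((P ^ C1) ^ (1 / (2 * C1)) / (1 / (2 * C1))))) ≤
      Real.exp (-(b / (4 * C1) * P)) := by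
  have hC10 : 0 < C1 := by linarith
  set s : ℝ := 1 / (2 * C1) with hs
  have hs0 : 0 < s := by positivity
  have hs1 : s ≤ 1 := by
    rw [hs, div_le_one (by positivity)]
    linarith
  have hY : (P ^ C1) ^ s = Real.sqrt P := by
    rw [← Real.rpow_mul hP0.le, Real.sqrt_eq_rpow]
    congr 1
    rw [hs]
    field_simp
  rw [hY]
  have hd : Real.sqrt P / s = 2 * C1 * Real.sqrt P := by
    rw [hs]
    field_simp
  rw [hd]
  have h2 : e0 * Real.exp (-(2 * b * P)) ≤ Real.exp (-(b * P)) := by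
    calc e0 * Real.exp (-(2 * b * P)) ≤ Real.exp (b * P) * Real.exp (-(2 * b * P)) := by gcongr
      _ = Real.exp (-(b * P)) := by
          rw [← Real.exp_add]
          congr 1
          ring
  have he0pos : 0 < e0 := lt_of_lt_of_le (by positivity) hElo
  have h3 : e0 ^ (-s) ≤ 2 * Real.exp (-(b / (2 * C1) * P)) := by
    have h4 : e0 ^ (-s) ≤ (Real.exp (b * P) / 2) ^ (-s) :=
      Real.rpow_le_rpow_of_nonpos (by positivity) hElo (by linarith)
    refine h4.trans ?_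
    rw [Real.div_rpow (Real.exp_pos _).le (by norm_num), ← Real.exp_mul, div_eq_mul_inv,
      ← Real.rpow_neg (by norm_num), neg_neg]
    have h5 : (2 : ℝ) ^ s ≤ 2 := by
      calc (2 : ℝ) ^ s ≤ 2 ^ (1 : ℝ) := Real.rpow_le_rpow_of_exponent_le (by norm_num) hs1
        _ = 2 := Real.rpow_one 2
    have h6 : b * P * -s = -(b / (2 * C1) * P) := by
      rw [hs]
      field_simp
    rw [h6]
    calc _ ≤ Real.exp (-(b / (2 * C1) * P)) * 2 := by gcongr
      _ = _ := by ring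
  have hsq0 : 0 ≤ Real.sqrt P := Real.sqrt_nonneg _
  have hsq : Real.sqrt P * Real.sqrt P = P := Real.mul_self_sqrt hP0.le
  have h7 : Real.exp (-(b * P)) ≤ Real.exp (-(b / (2 * C1) * P) + k * (2 * C1 * Real.sqrt P)) := by
    refine Real.exp_le_exp.2 ?_
    have h8 : b / (2 * C1) ≤ b := by
      rw [div_le_iff₀ (by positivity)]
      nlinarith
    have h9 : b / (2 * C1) * P ≤ b * P := mul_le_mul_of_nonneg_right h8 hP0.le
    have h10 : 0 ≤ (k : ℝ) * (2 * C1 * Real.sqrt P) := by positivity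
    linarith
  have h11 : e0 ^ (-s) * Real.exp (k * (2 * C1 * Real.sqrt P)) ≤
      2 * Real.exp (-(b / (2 * C1) * P) + k * (2 * C1 * Real.sqrt P)) := by
    rw [Real.exp_add]
    calc _ ≤ 2 * Real.exp (-(b / (2 * C1) * P)) * Real.exp (k * (2 * C1 * Real.sqrt P)) := by
          gcongr
      _ = _ := by ring
  have h12 : (16 * C1 ^ 2 * (k + 1) / b) ≤ Real.sqrt P := Real.le_sqrt_of_sq_le hP6
  have h13 : (k : ℝ) * (2 * C1 * Real.sqrt P) ≤ b / (8 * C1) * P := by
    have h14 : 16 * C1 ^ 2 * (k + 1) ≤ Real.sqrt P * b := by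
      rw [div_le_iff₀ hb0] at h12
      exact h12
    rw [div_mul_eq_mul_div, le_div_iff₀ (by positivity)]
    have h15 : (k : ℝ) * (2 * C1 * Real.sqrt P) * (8 * C1) = (16 * C1 ^ 2 * k) * Real.sqrt P := by
      ring
    rw [h15]
    calc 16 * C1 ^ 2 * k * Real.sqrt P ≤ (16 * C1 ^ 2 * (k + 1)) * Real.sqrt P := by
          refine mul_le_mul_of_nonneg_right ?_ hsq0
          nlinarith [sq_nonneg C1]
      _ ≤ (Real.sqrt P * b) * Real.sqrt P := mul_le_mul_of_nonneg_right h14 hsq0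
      _ = b * P := by rw [mul_comm (Real.sqrt P) b, mul_assoc, hsq]
  have h16 : (2 : ℝ) ≤ b / (8 * C1) * P := by
    rw [div_mul_eq_mul_div, le_div_iff₀ (by positivity)]
    rw [div_le_iff₀ hb0] at hP5
    linarith
  have h17 : (5 : ℝ) ≤ Real.exp 2 := by
    have h18 : Real.exp 2 = Real.exp 1 ^ 2 := by rw [← Real.exp_nat_mul]; norm_num
    have h19 := Real.exp_one_gt_d9
    rw [h18]
    calc (5 : ℝ) ≤ 2.7 ^ 2 := by norm_num
      _ ≤ Real.exp 1 ^ 2 := by
          refine pow_le_pow_left₀ (by norm_num) ?_ 2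
          linarith
  have h20 : Real.exp (-(b / (2 * C1) * P) + k * (2 * C1 * Real.sqrt P)) * 5 ≤
      Real.exp (-(b / (4 * C1) * P)) := by
    calc _ ≤ Real.exp (-(b / (2 * C1) * P) + k * (2 * C1 * Real.sqrt P)) * Real.exp 2 := by
          gcongr
      _ = Real.exp (-(b / (2 * C1) * P) + k * (2 * C1 * Real.sqrt P) + 2) := by
          rw [← Real.exp_add]
      _ ≤ _ := by
          refine Real.exp_le_exp.2 ?_
          have h21 : b / (2 * C1) * P = b / (4 * C1) * P + (b / (8 * C1) * P + b / (8 * C1) * P) := by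
            field_simp
            ring
          linarith
  linarith


/-- the numbers of AN6 -/
theorem an6_num (k E : ℕ) (C R C1 thQ : ℝ) (hE : 1 ≤ E) (hC : 1 ≤ C) (hR : 1 ≤ R)
    (hC1 : 1 ≤ C1) (h0 : 0 < thQ) (h1 : thQ ≤ 1 / (20 * E)) :
    ∃ c' P0 : ℝ, 0 < c' ∧ 1 ≤ P0 ∧ ∀ P : ℝ, P0 ≤ P → ∃ (E0 : ℕ) (δ : ℝ), 1 ≤ E0 ∧ 0 < δ ∧ δ ≤ 1 ∧
      (C * R * (E0 : ℝ) ^ k / δ) ^ E ≤ ((⌊Real.exp (thQ * P)⌋₊ : ℕ) : ℝ) ∧
      (C * R * (E0 : ℝ) ^ (3 * k) * Real.exp (thQ * P) * ((⌊Real.exp (thQ * P)⌋₊ : ℕ) : ℝ) / δ) ^ E ≤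
        Real.exp (P / 2) ∧
      (((⌊Real.exp (thQ * P)⌋₊ : ℕ) : ℝ)) ^ 4 ≤ Real.exp (P / 2) / 16 ∧
      (E0 : ℝ) * δ + 2 * ((E0 : ℝ) ^ (-(1 / (2 * C1))) *
        Real.exp (k * ((P ^ C1) ^ (1 / (2 * C1)) / (1 / (2 * C1))))) ≤ Real.exp (-(c' * P)) := by
  have hEr : (1 : ℝ) ≤ E := by exact_mod_cast hE
  have hk0 : (0 : ℝ) ≤ k := Nat.cast_nonneg _
  have hthQ20 : thQ * E ≤ 1 / 20 := by
    have h2 : thQ * (20 * E) ≤ 1 := by
      rw [le_div_iff₀ (by positivity)] at h1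
      exact h1
    linarith
  have hthQ : thQ ≤ 1 / 20 := by nlinarith
  set b : ℝ := thQ / (2 * E * (k + 2)) with hb
  have hden : (0 : ℝ) < 2 * E * (k + 2) := by positivity
  have hb0 : 0 < b := div_pos h0 hden
  have hbE : E * b * (k + 2) = thQ / 2 := by
    rw [hb]
    field_simp
  have hb1 : b ≤ 1 := by
    rw [hb, div_le_one hden]
    nlinarith
  have hCR : 1 ≤ C * R := one_le_mul_of_one_le_of_one_le hC hR
  set L : ℝ := Real.log ((C * R) ^ E) with hL
  have hCRE : 1 ≤ (C * R) ^ E := one_le_pow₀ hCR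
  have hL0 : 0 ≤ L := Real.log_nonneg hCRE
  have hexpL : Real.exp L = (C * R) ^ E := Real.exp_log (by positivity)
  refine ⟨b / (4 * C1), max 1 (max (2 * (L + 1) / thQ) (max (4 * L) (max 10
    (max (16 * C1 / b) ((16 * C1 ^ 2 * (k + 1) / b) ^ 2))))), by positivity, le_max_left _ _, ?_⟩
  intro P hP
  simp only [max_le_iff] at hP
  obtain ⟨hP1, hP2, hP3, hP4, hP5, hP6⟩ := hP
  have hP0 : 0 < P := by linarith
  have hx1 : 1 ≤ Real.exp (thQ * P) := Real.one_le_exp (by positivity)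
  set Qr : ℝ := ((⌊Real.exp (thQ * P)⌋₊ : ℕ) : ℝ) with hQr
  have hQlo : Real.exp (thQ * P) / 2 ≤ Qr := half_le_floor _ hx1
  have hQhi : Qr ≤ Real.exp (thQ * P) := Nat.floor_le (by positivity)
  have hQr0 : 0 ≤ Qr := Nat.cast_nonneg _
  have hy1 : 1 ≤ Real.exp (b * P) := Real.one_le_exp (by positivity)
  have hElo : Real.exp (b * P) / 2 ≤ ((⌊Real.exp (b * P)⌋₊ : ℕ) : ℝ) := half_le_floor _ hy1
  have hEhi : ((⌊Real.exp (b * P)⌋₊ : ℕ) : ℝ) ≤ Real.exp (b * P) := Nat.floor_le (by positivity)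
  refine ⟨⌊Real.exp (b * P)⌋₊, Real.exp (-(2 * b * P)), ?_, Real.exp_pos _, ?_, ?_, ?_, ?_, ?_⟩
  · exact Nat.le_floor (by simpa using hy1)
  · rw [Real.exp_le_one_iff]
    have : 0 ≤ 2 * b * P := by positivity
    linarith
  · -- first
    set e0 : ℝ := ((⌊Real.exp (b * P)⌋₊ : ℕ) : ℝ) with he0
    have he00 : 0 ≤ e0 := Nat.cast_nonneg _
    have h2 : C * R * e0 ^ k / Real.exp (-(2 * b * P)) ≤ C * R * Real.exp (b * (k + 2) * P) := by
      rw [Real.exp_neg, div_inv_eq_mul]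
      have h3 : e0 ^ k ≤ Real.exp (k * (b * P)) := by
        rw [Real.exp_nat_mul]
        exact pow_le_pow_left₀ he00 hEhi k
      calc C * R * e0 ^ k * Real.exp (2 * b * P) ≤
          C * R * Real.exp (k * (b * P)) * Real.exp (2 * b * P) := by gcongr
        _ = C * R * Real.exp (b * (k + 2) * P) := by
            rw [mul_assoc, ← Real.exp_add]
            congr 2
            ring
    have h4 : (C * R * e0 ^ k / Real.exp (-(2 * b * P))) ^ E ≤
        (C * R * Real.exp (b * (k + 2) * P)) ^ E := by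
      refine pow_le_pow_left₀ ?_ h2 E
      positivity
    refine h4.trans ?_
    rw [mul_pow, ← hexpL, ← Real.exp_nat_mul, ← Real.exp_add]
    have h5 : L + (E : ℝ) * (b * (k + 2) * P) = L + thQ / 2 * P := by
      rw [← hbE]; ring
    rw [h5]
    refine le_trans ?_ hQlo
    rw [le_div_iff₀ (by norm_num : (0:ℝ) < 2)]
    have h6 : (2 : ℝ) ≤ Real.exp 1 := by
      have := Real.add_one_le_exp (1 : ℝ)
      linarith
    calc Real.exp (L + thQ / 2 * P) * 2 ≤ Real.exp (L + thQ / 2 * P) * Real.exp 1 := by gcongr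
      _ = Real.exp (L + thQ / 2 * P + 1) := by rw [← Real.exp_add]
      _ ≤ Real.exp (thQ * P) := by
          refine Real.exp_le_exp.2 ?_
          rw [div_le_iff₀ h0] at hP2
          linarith
  · -- second
    set e0 : ℝ := ((⌊Real.exp (b * P)⌋₊ : ℕ) : ℝ) with he0
    have he00 : 0 ≤ e0 := Nat.cast_nonneg _
    have h2 : C * R * e0 ^ (3 * k) * Real.exp (thQ * P) * Qr / Real.exp (-(2 * b * P)) ≤
        C * R * Real.exp ((b * (3 * k + 2) + 2 * thQ) * P) := by
      rw [Real.exp_neg, div_inv_eq_mul]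
      have h3 : e0 ^ (3 * k) ≤ Real.exp (((3 * k : ℕ) : ℝ) * (b * P)) := by
        rw [Real.exp_nat_mul]
        exact pow_le_pow_left₀ he00 hEhi _
      calc C * R * e0 ^ (3 * k) * Real.exp (thQ * P) * Qr * Real.exp (2 * b * P) ≤
          C * R * Real.exp (((3 * k : ℕ) : ℝ) * (b * P)) * Real.exp (thQ * P) *
            Real.exp (thQ * P) * Real.exp (2 * b * P) := by gcongr
        _ = C * R * (Real.exp (((3 * k : ℕ) : ℝ) * (b * P)) * Real.exp (thQ * P) *
            Real.exp (thQ * P) * Real.exp (2 * b * P)) := by ring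
        _ = C * R * Real.exp ((b * (3 * k + 2) + 2 * thQ) * P) := by
            rw [← Real.exp_add, ← Real.exp_add, ← Real.exp_add]
            congr 2
            push_cast
            ring
    have h4 : (C * R * e0 ^ (3 * k) * Real.exp (thQ * P) * Qr / Real.exp (-(2 * b * P))) ^ E ≤
        (C * R * Real.exp ((b * (3 * k + 2) + 2 * thQ) * P)) ^ E := by
      refine pow_le_pow_left₀ ?_ h2 E
      positivity
    refine h4.trans ?_
    rw [mul_pow, ← hexpL, ← Real.exp_nat_mul, ← Real.exp_add]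
    refine Real.exp_le_exp.2 ?_
    have h5 : (E : ℝ) * b * (3 * k + 2) ≤ 3 / 2 * thQ := by
      have : (E : ℝ) * b * (3 * k + 2) ≤ E * b * (3 * (k + 2)) := by
        refine mul_le_mul_of_nonneg_left ?_ (by positivity)
        linarith
      have h6 : (E : ℝ) * b * (3 * (k + 2)) = 3 * (E * b * (k + 2)) := by ring
      rw [h6, hbE] at this
      linarith
    have h7 : (E : ℝ) * ((b * (3 * k + 2) + 2 * thQ) * P) ≤ 1 / 4 * P := by
      have h8 : (E : ℝ) * ((b * (3 * k + 2) + 2 * thQ) * P) =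
          (E * b * (3 * k + 2) + 2 * (thQ * E)) * P := by ring
      rw [h8]
      refine mul_le_mul_of_nonneg_right ?_ hP0.le
      linarith
    linarith
  · -- third
    have h2 : Qr ^ 4 ≤ Real.exp (thQ * P) ^ 4 := pow_le_pow_left₀ hQr0 hQhi 4
    refine h2.trans ?_
    rw [le_div_iff₀ (by norm_num : (0:ℝ) < 16), ← Real.exp_nat_mul]
    have h6 : (16 : ℝ) ≤ Real.exp 3 := by
      have h7 : Real.exp 3 = Real.exp 1 ^ 3 := by rw [← Real.exp_nat_mul]; norm_num
      have h8 := Real.exp_one_gt_d9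
      rw [h7]
      calc (16 : ℝ) ≤ 2.7 ^ 3 := by norm_num
        _ ≤ Real.exp 1 ^ 3 := by
            refine pow_le_pow_left₀ (by norm_num) ?_ 3
            linarith
    calc Real.exp (((4 : ℕ) : ℝ) * (thQ * P)) * 16 ≤
        Real.exp (((4 : ℕ) : ℝ) * (thQ * P)) * Real.exp 3 := by gcongr
      _ = Real.exp (((4 : ℕ) : ℝ) * (thQ * P) + 3) := by rw [← Real.exp_add]
      _ ≤ Real.exp (P / 2) := by
          refine Real.exp_le_exp.2 ?_
          push_cast
          have : thQ * P ≤ 1 / 20 * P := mul_le_mul_of_nonneg_right hthQ hP0.le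
          linarith
  · exact an6_fourth k b C1 P _ hC1 hb0 hP0 hElo hEhi hP5 hP6

end Vale.Agent.P042.H245
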