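import Vale.Agent.P042.MathlibUsed

set_option autoImplicit false

/-!
P042, block [D]: Rankin's trick for the tail of the inclusion-exclusion of the sieve weight.
-/

namespace Vale.Agent.P042.H245
open Finset

/-- `∑_{1 ≤ n ≤ M} n^(s-1) ≤ M^s / s` -/
theorem sum_rpow_le (s : ℝ) (hs : 0 < s) (hs1 : s ≤ 1) (M : ℕ) :
    ∑ n ∈ Icc 1 M, (n : ℝ) ^ (s - 1) ≤ (M : ℝ) ^ s / s := by
  induction M with
  | zero =>
    simp only [Nat.cast_zero]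
    rw [Real.zero_rpow hs.ne']
    simp
  | succ M ih =>
    rw [sum_Icc_succ_top (by omega)]
    have hM1 : (0 : ℝ) < ((M + 1 : ℕ) : ℝ) := by positivity
    -- `s (M+1)^(s-1) ≤ (M+1)^s - M^s` by Bernoulli
    have key : s * ((M + 1 : ℕ) : ℝ) ^ (s - 1) ≤ ((M + 1 : ℕ) : ℝ) ^ s - (M : ℝ) ^ s := by
      have h1 : (M : ℝ) = ((M + 1 : ℕ) : ℝ) * (1 + (-(1 / ((M + 1 : ℕ) : ℝ)))) := by
        field_simp
        push_cast
        ring
      have h2 : (1 + (-(1 / ((M + 1 : ℕ) : ℝ)))) ^ s ≤ 1 + s * (-(1 / ((M + 1 : ℕ) : ℝ))) := by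
        have hB := rpow_one_add_le_one_add_mul_self (s := -(1 / ((M + 1 : ℕ) : ℝ))) ?_ hs.le hs1
        · exact hB
        have : 1 / ((M + 1 : ℕ) : ℝ) ≤ 1 := by
          rw [div_le_one hM1]
          push_cast
          have : (0 : ℝ) ≤ M := Nat.cast_nonneg _
          linarith
        linarith
      have h3 : (0 : ℝ) ≤ 1 + (-(1 / ((M + 1 : ℕ) : ℝ))) := by
        have : 1 / ((M + 1 : ℕ) : ℝ) ≤ 1 := by
          rw [div_le_one hM1]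
          push_cast
          have : (0 : ℝ) ≤ M := Nat.cast_nonneg _
          linarith
        linarith
      have h4 : (M : ℝ) ^ s ≤ ((M + 1 : ℕ) : ℝ) ^ s * (1 + s * (-(1 / ((M + 1 : ℕ) : ℝ)))) := by
        conv_lhs => rw [h1]
        rw [Real.mul_rpow hM1.le h3]
        exact mul_le_mul_of_nonneg_left h2 (Real.rpow_nonneg hM1.le _)
      have h5 : ((M + 1 : ℕ) : ℝ) ^ (s - 1) = ((M + 1 : ℕ) : ℝ) ^ s * (1 / ((M + 1 : ℕ) : ℝ)) := by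
        rw [Real.rpow_sub_one hM1.ne', mul_one_div]
      rw [h5]
      nlinarith [h4]
    have h6 : ((M + 1 : ℕ) : ℝ) ^ (s - 1) ≤ (((M + 1 : ℕ) : ℝ) ^ s - (M : ℝ) ^ s) / s := by
      rw [le_div_iff₀ hs]
      linarith
    calc _ ≤ (M : ℝ) ^ s / s + (((M + 1 : ℕ) : ℝ) ^ s - (M : ℝ) ^ s) / s := add_le_add ih h6
      _ = _ := by ring

/-- Rankin's trick over the squarefree products of a set of integers `p ≤ Y` -/
theorem rankin (PP : Finset ℕ) (c Y E0 s : ℝ) (hc : 0 ≤ c) (hs : 0 < s) (hs1 : s ≤ 1)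
    (hP : ∀ p ∈ PP, 1 ≤ p ∧ (p : ℝ) ≤ Y) (hY : 0 ≤ Y) (hE : 0 < E0) :
    ∑ S ∈ PP.powerset.filter (fun S => E0 < ((∏ p ∈ S, p : ℕ) : ℝ)),
      c ^ S.card / ((∏ p ∈ S, p : ℕ) : ℝ) ≤ E0 ^ (-s) * Real.exp (c * (Y ^ s / s)) := by
  classical
  have h1 : ∀ S ∈ PP.powerset.filter (fun S => E0 < ((∏ p ∈ S, p : ℕ) : ℝ)),
      c ^ S.card / ((∏ p ∈ S, p : ℕ) : ℝ) ≤ E0 ^ (-s) * ∏ p ∈ S, (c * (p : ℝ) ^ (s - 1)) := by
    intro S hS
    rw [mem_filter, mem_powerset] at hS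
    obtain ⟨hSP, hSE⟩ := hS
    set D : ℝ := ((∏ p ∈ S, p : ℕ) : ℝ) with hD
    have hD0 : 0 < D := hE.trans hSE
    have h2 : ∏ p ∈ S, (c * (p : ℝ) ^ (s - 1)) = c ^ S.card * D ^ (s - 1) := by
      rw [prod_mul_distrib, prod_const, hD]
      congr 1
      push_cast
      exact Real.finsetProd_rpow _ _ (fun p _ => Nat.cast_nonneg p) _
    rw [h2, Real.rpow_sub_one hD0.ne']
    have h3 : 1 ≤ E0 ^ (-s) * D ^ s := by
      rw [Real.rpow_neg hE.le, ← div_eq_inv_mul, le_div_iff₀ (Real.rpow_pos_of_pos hE _), one_mul]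
      exact Real.rpow_le_rpow hE.le hSE.le hs.le
    have h4 : 0 ≤ c ^ S.card / D := div_nonneg (pow_nonneg hc _) hD0.le
    calc c ^ S.card / D = c ^ S.card / D * 1 := (mul_one _).symm
      _ ≤ c ^ S.card / D * (E0 ^ (-s) * D ^ s) := mul_le_mul_of_nonneg_left h3 h4
      _ = _ := by ring
  refine (sum_le_sum h1).trans ?_
  rw [← mul_sum]
  refine mul_le_mul_of_nonneg_left ?_ (Real.rpow_nonneg hE.le _)
  have hnn : ∀ p : ℕ, 0 ≤ c * (p : ℝ) ^ (s - 1) :=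
    fun p => mul_nonneg hc (Real.rpow_nonneg (Nat.cast_nonneg p) _)
  have h5 : ∑ S ∈ PP.powerset.filter (fun S => E0 < ((∏ p ∈ S, p : ℕ) : ℝ)),
      ∏ p ∈ S, (c * (p : ℝ) ^ (s - 1)) ≤ ∑ S ∈ PP.powerset, ∏ p ∈ S, (c * (p : ℝ) ^ (s - 1)) :=
    sum_le_sum_of_subset_of_nonneg (filter_subset _ _) fun S _ _ => prod_nonneg fun p _ => hnn p
  refine h5.trans ?_
  rw [← prod_one_add]
  have h6 : ∏ p ∈ PP, (1 + c * (p : ℝ) ^ (s - 1)) ≤ ∏ p ∈ PP, Real.exp (c * (p : ℝ) ^ (s - 1)) := by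
    refine prod_le_prod (fun p _ => by have := hnn p; linarith) fun p _ => ?_
    have := Real.add_one_le_exp (c * (p : ℝ) ^ (s - 1))
    linarith
  refine h6.trans ?_
  rw [← Real.exp_sum]
  refine Real.exp_le_exp.2 ?_
  rw [← mul_sum]
  refine mul_le_mul_of_nonneg_left ?_ hc
  have hsub : PP ⊆ Icc 1 ⌊Y⌋₊ := by
    intro p hp
    obtain ⟨h7, h8⟩ := hP p hp
    rw [mem_Icc]
    exact ⟨h7, Nat.le_floor h8⟩
  calc ∑ p ∈ PP, (p : ℝ) ^ (s - 1) ≤ ∑ p ∈ Icc 1 ⌊Y⌋₊, (p : ℝ) ^ (s - 1) :=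
        sum_le_sum_of_subset_of_nonneg hsub fun p _ _ => Real.rpow_nonneg (Nat.cast_nonneg p) _
    _ ≤ ((⌊Y⌋₊ : ℕ) : ℝ) ^ s / s := sum_rpow_le s hs hs1 _
    _ ≤ Y ^ s / s := by
        refine div_le_div_of_nonneg_right ?_ hs.le
        exact Real.rpow_le_rpow (Nat.cast_nonneg _) (Nat.floor_le hY) hs.le

end Vale.Agent.P042.H245
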