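import Vale.Agent.P042.H74.AnX
import Vale.Agent.P042.H245.ZS
import Vale.Agent.P042.H245.Rankin
import Vale.Agent.P042.H245.Num

set_option autoImplicit false

/-!
P042, block [D]: the circle method with sieve weights, final form (all parameters are powers of
`e^P`, the error is a power saving).
-/

namespace Vale.Agent.P042.H245
open Polynomial Finset Vale.Agent.P042.SS Vale.Agent.P042.H74

/-- the tail of the inclusion-exclusion of the sieve weight -/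
theorem tail_le (f : ℤ[X]) (k : ℕ) (hk : 1 ≤ k) (hdeg : f.natDegree = k) (PP : Finset ℕ)
    (Y s : ℝ) (E0 : ℕ)
    (hPP : ∀ p ∈ PP, p.Prime ∧ k < p ∧ (∃ j : ℕ, 1 ≤ j ∧ ¬ (p : ℤ) ∣ f.coeff j) ∧ (p : ℝ) ≤ Y)
    (hY : 0 ≤ Y) (hs : 0 < s) (hs1 : s ≤ 1) (hE0 : 1 ≤ E0) :
    ∑ S ∈ PP.powerset.filter (fun S => E0 < ∏ p ∈ S, p),
        ((ZS f S).card : ℝ) / ((∏ p ∈ S, p : ℕ) : ℝ) ≤
      (E0 : ℝ) ^ (-s) * Real.exp (k * (Y ^ s / s)) := by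
  have h1 : ∀ S ∈ PP.powerset.filter (fun S => E0 < ∏ p ∈ S, p),
      ((ZS f S).card : ℝ) / ((∏ p ∈ S, p : ℕ) : ℝ) ≤
        (k : ℝ) ^ S.card / ((∏ p ∈ S, p : ℕ) : ℝ) := by
    intro S hS
    rw [mem_filter, mem_powerset] at hS
    have h2 : (ZS f S).card ≤ (k - 1) ^ S.card := by
      refine ZS_card f S (k - 1) (fun p hp => (hPP p (hS.1 hp)).1) fun p hp => ?_
      obtain ⟨h3, h4, h5, -⟩ := hPP p (hS.1 hp)
      exact sing_card f k p h3 hk hdeg h4 h5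
    have h6 : ((ZS f S).card : ℝ) ≤ (k : ℝ) ^ S.card := by
      have h7 : (ZS f S).card ≤ k ^ S.card := h2.trans (Nat.pow_le_pow_left (by omega) _)
      exact_mod_cast h7
    exact div_le_div_of_nonneg_right h6 (Nat.cast_nonneg _)
  refine (sum_le_sum h1).trans ?_
  have h8 := rankin PP k Y E0 s (Nat.cast_nonneg _) hs hs1
    (fun p hp => ⟨(hPP p hp).1.one_lt.le, (hPP p hp).2.2.2⟩) hY (by exact_mod_cast hE0)
  refine le_trans (le_of_eq ?_) h8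
  refine sum_congr ?_ fun _ _ => rfl
  refine filter_congr fun S _ => ?_
  exact Nat.cast_lt.symm

/-- **circle method with sieve weights, P-form** -/
theorem AN6 (k : ℕ) (hk : 2 ≤ k) : ∃ E : ℕ, 1 ≤ E ∧ ∀ (R : ℕ) (C1 thQ : ℝ), 1 ≤ R → 1 ≤ C1 →
    0 < thQ → thQ ≤ 1 / (20 * E) → ∃ c' P0 : ℝ, 0 < c' ∧ 1 ≤ P0 ∧
    ∀ (P : ℝ) (f : ℤ[X]) (PP : Finset ℕ) (N' H Q : ℕ) (G : ℤ → ℝ), P0 ≤ P →
    f.natDegree = k → 0 < f.leadingCoeff →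
    (∀ g : ℤ, (∀ j : ℕ, 1 ≤ j → g ∣ f.coeff j) → g ∣ (R : ℤ)) →
    (∀ j : ℕ, |(f.coeff j : ℝ)| ≤ Real.exp (thQ * P)) →
    (∀ p ∈ PP, p.Prime ∧ k < p ∧ (∃ j : ℕ, 1 ≤ j ∧ ¬ (p : ℤ) ∣ f.coeff j) ∧ (p : ℝ) ≤ P ^ C1) →
    Real.exp (P / 2) ≤ N' → 8 * H ≤ N' → N' ≤ 16 * H → Q = ⌊Real.exp (thQ * P)⌋₊ →
    (∀ n, 0 ≤ G n) → (∀ n, G n ≠ 0 → 1 ≤ n ∧ n ≤ N') →
    (∀ n m : ℤ, G n ≠ 0 → G m ≠ 0 → ∀ x : ℕ, 1 ≤ x → n - m = f.eval (x : ℤ) → n = m) →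
    ‖∑ q ∈ Icc 1 Q, ∑ a ∈ (range q).filter (Nat.Coprime q),
      GamW f PP a q * Bil G N' H ((a : ℝ) / q)‖ ≤
      Real.exp (-(c' * P)) * ((H : ℝ) ^ 2 * ∑ n ∈ Icc (1 : ℤ) N', G n ^ 2) := by
  obtain ⟨E, C, hE, hC, hAN⟩ := an_W k hk
  refine ⟨E, hE, ?_⟩
  intro R C1 thQ hR hC1 hth0 hth1
  obtain ⟨c', P0, hc', hP01, hnum⟩ := an6_num k E C R C1 thQ hE (by exact_mod_cast hC)
    (by exact_mod_cast hR) hC1 hth0 hth1
  refine ⟨c', P0, hc', hP01, ?_⟩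
  intro P f PP N' H Q G hP hdeg hlead hcont hcoef hPP hN' h8 h16 hQ hG0 hGs hfree
  obtain ⟨E0, δ, hE0, hδ, hδ1, n1, n2, n3, n4⟩ := hnum P hP
  have hPpos : 0 < P := by linarith
  have hs0 : (0 : ℝ) < 1 / (2 * C1) := by positivity
  have hs1 : (1 : ℝ) / (2 * C1) ≤ 1 := by
    rw [div_le_one (by positivity)]
    linarith
  have hB1 : (1 : ℝ) ≤ Real.exp (thQ * P) := Real.one_le_exp (by positivity)
  have h16r : (N' : ℝ) ≤ 16 * H := by exact_mod_cast h16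
  have hmain := hAN R hR f PP N' H Q E0 δ (Real.exp (thQ * P)) G hdeg hlead hcont hδ hδ1 hB1 hcoef
    (fun p hp => (hPP p hp).1) hE0 h8 h16 (by rw [hQ]; exact n1)
    (by rw [hQ]; exact n2.trans hN') (by
      rw [hQ]
      refine n3.trans ?_
      rw [div_le_iff₀ (by norm_num : (0:ℝ) < 16)]
      linarith) hG0 hGs hfree
  refine hmain.trans ?_
  refine mul_le_mul_of_nonneg_right ?_
    (mul_nonneg (sq_nonneg _) (sum_nonneg fun _ _ => sq_nonneg _))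
  refine le_trans ?_ n4
  have htail := tail_le f k (by omega) hdeg PP (P ^ C1) (1 / (2 * C1)) E0 hPP
    (by positivity) hs0 hs1 hE0
  linarith

end Vale.Agent.P042.H245
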