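import Vale.Agent.P042.H359.AnWPair
import Vale.Agent.P042.H245.AN6

set_option autoImplicit false

/-!
P042, block [D]: the circle method with sieve weights for one pair of windows and signed
functions, final form.
-/

namespace Vale.Agent.P042.H245
open Polynomial Finset Vale.Agent.P042.SS Vale.Agent.P042.H74

/-- **circle method with sieve weights for one pair of windows, signed functions, P-form** -/
theorem AN6P (k : ℕ) (hk : 2 ≤ k) : ∃ E : ℕ, 1 ≤ E ∧ ∀ (R : ℕ) (C1 thQ : ℝ), 1 ≤ R → 1 ≤ C1 →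
    0 < thQ → thQ ≤ 1 / (20 * E) → ∃ c' P0 : ℝ, 0 < c' ∧ 1 ≤ P0 ∧
    ∀ (P : ℝ) (f : ℤ[X]) (PP : Finset ℕ) (N' H h Q : ℕ) (z : ℤ) (s : ℤ → Prop) (g1 g2 : ℤ → ℝ),
    P0 ≤ P → f.natDegree = k → 0 < f.leadingCoeff →
    (∀ g : ℤ, (∀ j : ℕ, 1 ≤ j → g ∣ f.coeff j) → g ∣ (R : ℤ)) →
    (∀ j : ℕ, |(f.coeff j : ℝ)| ≤ Real.exp (thQ * P)) →
    (∀ p ∈ PP, p.Prime ∧ k < p ∧ (∃ j : ℕ, 1 ≤ j ∧ ¬ (p : ℤ) ∣ f.coeff j) ∧ (p : ℝ) ≤ P ^ C1) →
    Real.exp (P / 2) ≤ N' → 3 * h ≤ H → 8 * (H + h) ≤ N' → N' ≤ 16 * H →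
    Q = ⌊Real.exp (thQ * P)⌋₊ → 0 ≤ z → z + 3 * H + 2 * h ≤ N' →
    (∀ n m : ℤ, s n → s m → ∀ x : ℕ, 1 ≤ x → n - m = f.eval (x : ℤ) → n = m) →
    (∀ n, g1 n ≠ 0 → s n) → (∀ n, g2 n ≠ 0 → s n) →
    ‖∑ q ∈ Icc 1 Q, ∑ a ∈ (range q).filter (Nat.Coprime q),
      GamW f PP a q * (Fw g1 (z + 3 * H + h) h ((a : ℝ) / q) *
        (starRingEnd ℂ) (Fw g2 z h ((a : ℝ) / q)))‖ ≤
      Real.exp (-(c' * P)) * (32 * H *
        (Real.sqrt (∑ n ∈ Ioc (z + 3 * H + h) (z + 3 * H + h + h), g1 n ^ 2) *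
          Real.sqrt (∑ m ∈ Ioc z (z + h), g2 m ^ 2))) := by
  obtain ⟨E, C, hE, hC, hAN⟩ := H359.anW_pair k hk
  refine ⟨E, hE, ?_⟩
  intro R C1 thQ hR hC1 hth0 hth1
  obtain ⟨c', P0, hc', hP01, hnum⟩ := an6_num k E C R C1 thQ hE (by exact_mod_cast hC)
    (by exact_mod_cast hR) hC1 hth0 hth1
  refine ⟨c', P0, hc', hP01, ?_⟩
  intro P f PP N' H h Q z s g1 g2 hP hdeg hlead hcont hcoef hPP hN' h3 h8 h16 hQ hz hzN hfree
    hs1 hs2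
  obtain ⟨E0, δ, hE0, hδ, hδ1, n1, n2, n3, n4⟩ := hnum P hP
  have hPpos : 0 < P := by linarith
  have ht0 : (0 : ℝ) < 1 / (2 * C1) := by positivity
  have ht1 : (1 : ℝ) / (2 * C1) ≤ 1 := by
    rw [div_le_one (by positivity)]
    linarith
  have hB1 : (1 : ℝ) ≤ Real.exp (thQ * P) := Real.one_le_exp (by positivity)
  have h16r : (N' : ℝ) ≤ 16 * H := by exact_mod_cast h16
  have hH1 : 1 ≤ H := by
    have h4 : (1 : ℝ) ≤ N' := le_trans (Real.one_le_exp (by positivity)) hN'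
    have h5 : 1 ≤ N' := by exact_mod_cast h4
    omega
  have hmain := hAN R hR f PP N' H h Q E0 δ (Real.exp (thQ * P)) z s g1 g2 hdeg hlead hcont hδ hδ1
    hB1 hcoef (fun p hp => (hPP p hp).1) hE0 hH1 h3 h8 h16 (by rw [hQ]; exact n1)
    (by rw [hQ]; exact n2.trans hN') (by
      rw [hQ]
      refine n3.trans ?_
      rw [div_le_iff₀ (by norm_num : (0:ℝ) < 16)]
      linarith) hz hzN hfree hs1 hs2
  refine hmain.trans ?_
  refine mul_le_mul_of_nonneg_right ?_ (by positivity)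
  refine le_trans ?_ n4
  have htail := tail_le f k (by omega) hdeg PP (P ^ C1) (1 / (2 * C1)) E0 hPP
    (by positivity) ht0 ht1 hE0
  linarith

end Vale.Agent.P042.H245
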