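import Vale.Agent.P042.H245.Num

set_option autoImplicit false

/-!
P042, block [S]: the parameters of the circle method, uniform in the content.
-/

namespace Vale.Agent.P042.H245
open Finset

/-- the numbers of ANU: the content may be a small power of `e^P` -/
theorem anu_num (k E : ℕ) (C C1 thQ : ℝ) (hE : 1 ≤ E) (hC : 1 ≤ C)
    (hC1 : 1 ≤ C1) (h0 : 0 < thQ) (h1 : thQ ≤ 1 / (20 * E)) :
    ∃ c' κ1 P0 : ℝ, 0 < c' ∧ 0 < κ1 ∧ κ1 ≤ 1 / 2 ∧ κ1 ≤ thQ ∧ 1 ≤ P0 ∧
    ∀ P R : ℝ, P0 ≤ P → 1 ≤ R → R ≤ Real.exp (κ1 * P) →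
    ∃ (E0 : ℕ) (δ : ℝ), 1 ≤ E0 ∧ 0 < δ ∧ δ ≤ 1 ∧
      (C * R * (E0 : ℝ) ^ k / δ) ^ E ≤ ((⌊Real.exp (thQ * P)⌋₊ : ℕ) : ℝ) ∧
      (C * R * (E0 : ℝ) ^ (3 * k) * Real.exp (thQ * P) * ((⌊Real.exp (thQ * P)⌋₊ : ℕ) : ℝ) / δ) ^ E ≤
        Real.exp (P / 2) ∧
      (((⌊Real.exp (thQ * P)⌋₊ : ℕ) : ℝ)) ^ 4 ≤ Real.exp (P / 2) / 16 ∧
      (E0 : ℝ) * δ + 2 * ((E0 : ℝ) ^ (-(1 / (2 * C1))) *
        Real.exp (k * ((P ^ C1) ^ (1 / (2 * C1)) / (1 / (2 * C1))))) ≤ Real.exp (-(c' * P)) := by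
  have hEr : (1 : ℝ) ≤ E := by exact_mod_cast hE
  have hk0 : (0 : ℝ) ≤ k := Nat.cast_nonneg _
  have hthQ20 : thQ * E ≤ 1 / 20 := by
    have h2 : thQ * (20 * E) ≤ 1 := by
      rw [le_div_iff₀ (by positivity)] at h1
      exact h1
    linarith
  have hthQ : thQ ≤ 1 / 20 := by nlinarith
  set b : ℝ := thQ / (2 * E * (k + 3)) with hb
  have hden : (0 : ℝ) < 2 * E * (k + 3) := by positivity
  have hb0 : 0 < b := div_pos h0 hden
  have hbE : E * b * (k + 3) = thQ / 2 := by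
    rw [hb]
    field_simp
  have hb1 : b ≤ 1 := by
    rw [hb, div_le_one hden]
    nlinarith
  have hbth : b ≤ thQ := by
    rw [hb, div_le_iff₀ hden]
    have h2E : (1 : ℝ) ≤ 2 * E * (k + 3) := by nlinarith
    calc thQ = thQ * 1 := (mul_one _).symm
      _ ≤ thQ * (2 * E * (k + 3)) := mul_le_mul_of_nonneg_left h2E h0.le
  set L : ℝ := Real.log (C ^ E) with hL
  have hCRE : 1 ≤ C ^ E := one_le_pow₀ hC
  have hL0 : 0 ≤ L := Real.log_nonneg hCRE
  have hexpL : Real.exp L = C ^ E := Real.exp_log (by positivity)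
  refine ⟨b / (4 * C1), b, max 1 (max (2 * (L + 1) / thQ) (max (4 * L) (max 10
    (max (16 * C1 / b) ((16 * C1 ^ 2 * (k + 1) / b) ^ 2))))), by positivity, hb0, by linarith, hbth, le_max_left _ _, ?_⟩
  intro P R hP hR1 hR
  simp only [max_le_iff] at hP
  obtain ⟨hP1, hP2, hP3, hP4, hP5, hP6⟩ := hP
  have hP0 : 0 < P := by linarith
  have hx1 : 1 ≤ Real.exp (thQ * P) := Real.one_le_exp (by positivity)
  set Qr : ℝ := ((⌊Real.exp (thQ * P)⌋₊ : ℕ) : ℝ) with hQr
  have hQlo : Real.exp (thQ * P) / 2 ≤ Qr := half_le_floor _ hx1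
  have hQhi : Qr ≤ Real.exp (thQ * P) := Nat.floor_le (by positivity)
  have hQr0 : 0 ≤ Qr := Nat.cast_nonneg _
  have hy1 : 1 ≤ Real.exp (b * P) := Real.one_le_exp (by positivity)
  have hElo : Real.exp (b * P) / 2 ≤ ((⌊Real.exp (b * P)⌋₊ : ℕ) : ℝ) := half_le_floor _ hy1
  have hEhi : ((⌊Real.exp (b * P)⌋₊ : ℕ) : ℝ) ≤ Real.exp (b * P) := Nat.floor_le (by positivity)
  refine ⟨⌊Real.exp (b * P)⌋₊, Real.exp (-(2 * b * P)), ?_, Real.exp_pos _, ?_, ?_, ?_, ?_, ?_⟩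
  · exact Nat.le_floor (by simpa using hy1)
  · rw [Real.exp_le_one_iff]
    have : 0 ≤ 2 * b * P := by positivity
    linarith
  · -- first
    set e0 : ℝ := ((⌊Real.exp (b * P)⌋₊ : ℕ) : ℝ) with he0
    have he00 : 0 ≤ e0 := Nat.cast_nonneg _
    have h2 : C * R * e0 ^ k / Real.exp (-(2 * b * P)) ≤ C * Real.exp (b * (k + 3) * P) := by
      rw [Real.exp_neg, div_inv_eq_mul]
      have h3 : e0 ^ k ≤ Real.exp (k * (b * P)) := by
        rw [Real.exp_nat_mul]
        exact pow_le_pow_left₀ he00 hEhi k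
      calc C * R * e0 ^ k * Real.exp (2 * b * P) ≤
          C * Real.exp (b * P) * Real.exp (k * (b * P)) * Real.exp (2 * b * P) := by gcongr
        _ = C * Real.exp (b * (k + 3) * P) := by
            rw [mul_assoc, mul_assoc, ← Real.exp_add, ← Real.exp_add]
            congr 2
            ring
    have h4 : (C * R * e0 ^ k / Real.exp (-(2 * b * P))) ^ E ≤
        (C * Real.exp (b * (k + 3) * P)) ^ E := by
      refine pow_le_pow_left₀ ?_ h2 E
      positivity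
    refine h4.trans ?_
    rw [mul_pow, ← hexpL, ← Real.exp_nat_mul, ← Real.exp_add]
    have h5 : L + (E : ℝ) * (b * (k + 3) * P) = L + thQ / 2 * P := by
      rw [← hbE]; ring
    rw [h5]
    refine le_trans ?_ hQlo
    rw [le_div_iff₀ (by norm_num : (0:ℝ) < 2)]
    have h6 : (2 : ℝ) ≤ Real.exp 1 := by
      have := Real.add_one_le_exp (1 : ℝ)
      linarith
    calc Real.exp (L + thQ / 2 * P) * 2 ≤ Real.exp (L + thQ / 2 * P) * Real.exp 1 := by gcongr
      _ = Real.exp (L + thQ / 2 * P + 1) := by rw [← Real.exp_add]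
      _ ≤ Real.exp (thQ * P) := by
          refine Real.exp_le_exp.2 ?_
          rw [div_le_iff₀ h0] at hP2
          linarith
  · -- second
    set e0 : ℝ := ((⌊Real.exp (b * P)⌋₊ : ℕ) : ℝ) with he0
    have he00 : 0 ≤ e0 := Nat.cast_nonneg _
    have h2 : C * R * e0 ^ (3 * k) * Real.exp (thQ * P) * Qr / Real.exp (-(2 * b * P)) ≤
        C * Real.exp ((b * (3 * k + 3) + 2 * thQ) * P) := by
      rw [Real.exp_neg, div_inv_eq_mul]
      have h3 : e0 ^ (3 * k) ≤ Real.exp (((3 * k : ℕ) : ℝ) * (b * P)) := by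
        rw [Real.exp_nat_mul]
        exact pow_le_pow_left₀ he00 hEhi _
      calc C * R * e0 ^ (3 * k) * Real.exp (thQ * P) * Qr * Real.exp (2 * b * P) ≤
          C * Real.exp (b * P) * Real.exp (((3 * k : ℕ) : ℝ) * (b * P)) * Real.exp (thQ * P) *
            Real.exp (thQ * P) * Real.exp (2 * b * P) := by gcongr
        _ = C * (Real.exp (b * P) * Real.exp (((3 * k : ℕ) : ℝ) * (b * P)) * Real.exp (thQ * P) *
            Real.exp (thQ * P) * Real.exp (2 * b * P)) := by ring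
        _ = C * Real.exp ((b * (3 * k + 3) + 2 * thQ) * P) := by
            rw [← Real.exp_add, ← Real.exp_add, ← Real.exp_add, ← Real.exp_add]
            congr 2
            push_cast
            ring
    have h4 : (C * R * e0 ^ (3 * k) * Real.exp (thQ * P) * Qr / Real.exp (-(2 * b * P))) ^ E ≤
        (C * Real.exp ((b * (3 * k + 3) + 2 * thQ) * P)) ^ E := by
      refine pow_le_pow_left₀ ?_ h2 E
      positivity
    refine h4.trans ?_
    rw [mul_pow, ← hexpL, ← Real.exp_nat_mul, ← Real.exp_add]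
    refine Real.exp_le_exp.2 ?_
    have h5 : (E : ℝ) * b * (3 * k + 3) ≤ 3 / 2 * thQ := by
      have : (E : ℝ) * b * (3 * k + 3) ≤ E * b * (3 * (k + 3)) := by
        refine mul_le_mul_of_nonneg_left ?_ (by positivity)
        linarith
      have h6 : (E : ℝ) * b * (3 * (k + 3)) = 3 * (E * b * (k + 3)) := by ring
      rw [h6, hbE] at this
      linarith
    have h7 : (E : ℝ) * ((b * (3 * k + 3) + 2 * thQ) * P) ≤ 1 / 4 * P := by
      have h8 : (E : ℝ) * ((b * (3 * k + 3) + 2 * thQ) * P) =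
          (E * b * (3 * k + 3) + 2 * (thQ * E)) * P := by ring
      rw [h8]
      refine mul_le_mul_of_nonneg_right ?_ hP0.le
      linarith
    linarith
  · -- third
    have h2 : Qr ^ 4 ≤ Real.exp (thQ * P) ^ 4 := pow_le_pow_left₀ hQr0 hQhi 4
    refine h2.trans ?_
    rw [le_div_iff₀ (by norm_num : (0:ℝ) < 16), ← Real.exp_nat_mul]
    have h6 : (16 : ℝ) ≤ Real.exp 3 := by
      have h7 : Real.exp 3 = Real.exp 1 ^ 3 := by rw [← Real.exp_nat_mul]; norm_num
      have h8 := Real.exp_one_gt_d9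
      rw [h7]
      calc (16 : ℝ) ≤ 2.7 ^ 3 := by norm_num
        _ ≤ Real.exp 1 ^ 3 := by
            refine pow_le_pow_left₀ (by norm_num) ?_ 3
            linarith
    calc Real.exp (((4 : ℕ) : ℝ) * (thQ * P)) * 16 ≤
        Real.exp (((4 : ℕ) : ℝ) * (thQ * P)) * Real.exp 3 := by gcongr
      _ = Real.exp (((4 : ℕ) : ℝ) * (thQ * P) + 3) := by rw [← Real.exp_add]
      _ ≤ Real.exp (P / 2) := by
          refine Real.exp_le_exp.2 ?_
          push_cast
          have : thQ * P ≤ 1 / 20 * P := mul_le_mul_of_nonneg_right hthQ hP0.le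
          linarith
  · exact an6_fourth k b C1 P _ hC1 hb0 hP0 hElo hEhi hP5 hP6

end Vale.Agent.P042.H245
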