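import Vale.Agent.P042.H359.TwoTent

set_option autoImplicit false

/-!
The two-tent trick of `H359.TwoTent` under the weaker condition `2 h ≤ H`.
-/

namespace Vale.Agent.P042.H245

open Polynomial Finset Vale.Agent.P042.SS Vale.Agent.P042.H359

theorem two_tent2 {H h : ℕ} {t : ℤ} (hh : 2 * h ≤ H) (h1 : 3 * (H : ℤ) + 1 ≤ t)
    (h2 : t ≤ 3 * (H : ℤ) + 2 * h) :
    tent H t + tent (H + h) t = 2 * (H : ℤ) - 2 * h := by
  rw [tent_down h1 (by omega), tent_up (by push_cast; omega) (by push_cast; omega)]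
  push_cast
  ring

/-- **Two tents.**  `G` is supported on the two windows `(z, z+h]` and
`(z+3H+h, z+3H+2h]`. -/
theorem two_window2 {G : ℤ → ℝ} {N' H h : ℕ} {z : ℤ}
    (hsupp : ∀ n, G n ≠ 0 → 1 ≤ n ∧ n ≤ (N' : ℤ)) (hHN : 2 * (H + h) ≤ N') (hh : 2 * h ≤ H)
    (hwin : ∀ n, G n ≠ 0 → n ∈ Ioc z (z + h) ∨ n ∈ Ioc (z + 3 * H + h) (z + 3 * H + h + h))
    (θ : ℝ) :
    Bil G N' H θ + Bil G N' (H + h) θ =
      ((2 * (H : ℝ) - 2 * h : ℝ) : ℂ) *
        (Fw G (z + 3 * H + h) h θ * (starRingEnd ℂ) (Fw G z h θ)) := by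
  rw [Bil_tent hsupp (by omega), Bil_tent hsupp hHN, ← Finset.sum_add_distrib]
  have hF1 : Fw G (z + 3 * H + h) h θ = ∑ n ∈ Icc (1 : ℤ) N',
      (if n ∈ Ioc (z + 3 * H + h) (z + 3 * H + h + h) then (G n : ℂ) * e (-((n : ℝ) * θ))
        else 0) := by
    rw [← Finset.sum_filter]
    unfold Fw
    symm
    apply Finset.sum_subset_zero_on_sdiff
    · intro n hn
      exact (Finset.mem_filter.1 hn).2
    · intro n hn
      rw [Finset.mem_sdiff, Finset.mem_filter] at hn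
      have h3 : G n = 0 := by
        by_contra h4
        exact hn.2 ⟨Finset.mem_Icc.2 (hsupp n h4), hn.1⟩
      rw [h3]
      simp
    · intro n _
      rfl
  have hF2 : (starRingEnd ℂ) (Fw G z h θ) = ∑ m ∈ Icc (1 : ℤ) N',
      (if m ∈ Ioc z (z + h) then (G m : ℂ) * e ((m : ℝ) * θ) else 0) := by
    rw [← Finset.sum_filter]
    unfold Fw
    rw [map_sum]
    symm
    apply Finset.sum_subset_zero_on_sdiff
    · intro n hn
      exact (Finset.mem_filter.1 hn).2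
    · intro n hn
      rw [Finset.mem_sdiff, Finset.mem_filter] at hn
      have h3 : G n = 0 := by
        by_contra h4
        exact hn.2 ⟨Finset.mem_Icc.2 (hsupp n h4), hn.1⟩
      rw [h3]
      simp
    · intro n _
      rw [map_mul, AN.e_conj, Complex.conj_ofReal, neg_neg]
  rw [hF1, hF2, Finset.sum_mul_sum, Finset.mul_sum]
  refine Finset.sum_congr rfl fun n _ => ?_
  rw [← Finset.sum_add_distrib, Finset.mul_sum]
  refine Finset.sum_congr rfl fun m _ => ?_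
  by_cases hn : G n = 0
  · rw [hn]
    simp
  by_cases hm : G m = 0
  · rw [hm]
    simp
  have wn := hwin n hn
  have wm := hwin m hm
  rw [← add_mul]
  rw [Finset.mem_Ioc, Finset.mem_Ioc] at wn wm
  by_cases c1 : n ∈ Ioc (z + 3 * H + h) (z + 3 * H + h + h)
  · by_cases c2 : m ∈ Ioc z (z + h)
    · rw [if_pos c1, if_pos c2]
      rw [Finset.mem_Ioc] at c1 c2
      have ht := two_tent2 (H := H) (h := h) (t := n - m) hh (by omega) (by omega)
      have ht' : ((tent H (n - m) : ℝ) : ℂ) + ((tent (H + h) (n - m) : ℝ) : ℂ) =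
          ((2 * (H : ℝ) - 2 * h : ℝ) : ℂ) := by
        have : (tent H (n - m) : ℝ) + (tent (H + h) (n - m) : ℝ) = 2 * (H : ℝ) - 2 * h := by
          exact_mod_cast ht
        rw [← Complex.ofReal_add, this]
      rw [ht']
    · rw [if_neg c2, mul_zero, mul_zero]
      rw [Finset.mem_Ioc] at c1 c2
      rw [tent_low (by omega), tent_low (by push_cast; omega)]
      simp
  · rw [if_neg c1, zero_mul, mul_zero]
    rw [Finset.mem_Ioc] at c1
    rw [tent_low (by omega), tent_low (by push_cast; omega)]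
    simp

/-- linear consequence: bounds for the two bilinear sums give a bound for the product of the
windowed sums of ONE pair of windows -/
theorem two_window_bound2 {G : ℤ → ℝ} {N' H h : ℕ} {z : ℤ} {b1 b2 : ℝ}
    (hsupp : ∀ n, G n ≠ 0 → 1 ≤ n ∧ n ≤ (N' : ℤ)) (hHN : 2 * (H + h) ≤ N') (hh : 2 * h ≤ H)
    (hH : 1 ≤ H)
    (hwin : ∀ n, G n ≠ 0 → n ∈ Ioc z (z + h) ∨ n ∈ Ioc (z + 3 * H + h) (z + 3 * H + h + h))
    (Qs : Finset ℕ) (c : ℕ → ℕ → ℂ)
    (h1 : ‖∑ q ∈ Qs, ∑ a ∈ (range q).filter (Nat.Coprime q),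
      c a q * Bil G N' H ((a : ℝ) / q)‖ ≤ b1)
    (h2 : ‖∑ q ∈ Qs, ∑ a ∈ (range q).filter (Nat.Coprime q),
      c a q * Bil G N' (H + h) ((a : ℝ) / q)‖ ≤ b2) :
    (H : ℝ) * ‖∑ q ∈ Qs, ∑ a ∈ (range q).filter (Nat.Coprime q),
      c a q * (Fw G (z + 3 * H + h) h ((a : ℝ) / q) *
        (starRingEnd ℂ) (Fw G z h ((a : ℝ) / q)))‖ ≤ b1 + b2 := by
  have key : ((2 * (H : ℝ) - 2 * h : ℝ) : ℂ) *
      ∑ q ∈ Qs, ∑ a ∈ (range q).filter (Nat.Coprime q),
        c a q * (Fw G (z + 3 * H + h) h ((a : ℝ) / q) *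
          (starRingEnd ℂ) (Fw G z h ((a : ℝ) / q))) =
      ∑ q ∈ Qs, ∑ a ∈ (range q).filter (Nat.Coprime q), c a q * Bil G N' H ((a : ℝ) / q) +
      ∑ q ∈ Qs, ∑ a ∈ (range q).filter (Nat.Coprime q),
        c a q * Bil G N' (H + h) ((a : ℝ) / q) := by
    rw [Finset.mul_sum, ← Finset.sum_add_distrib]
    refine Finset.sum_congr rfl fun q _ => ?_
    rw [Finset.mul_sum, ← Finset.sum_add_distrib]
    refine Finset.sum_congr rfl fun a _ => ?_
    rw [← mul_add, two_window2 hsupp hHN hh hwin]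
    ring
  have hn := norm_add_le
    (∑ q ∈ Qs, ∑ a ∈ (range q).filter (Nat.Coprime q), c a q * Bil G N' H ((a : ℝ) / q))
    (∑ q ∈ Qs, ∑ a ∈ (range q).filter (Nat.Coprime q), c a q * Bil G N' (H + h) ((a : ℝ) / q))
  rw [← key, norm_mul, Complex.norm_real, Real.norm_eq_abs] at hn
  have hpos : (H : ℝ) ≤ |2 * (H : ℝ) - 2 * h| := by
    have h3 : (2 : ℝ) * h ≤ H := by exact_mod_cast hh
    refine le_trans ?_ (le_abs_self _)
    have h4 : (0 : ℝ) ≤ H := by positivity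
    linarith
  exact ((mul_le_mul_of_nonneg_right hpos (norm_nonneg _)).trans hn).trans (by linarith)

end Vale.Agent.P042.H245
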