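import Vale.Agent.P042.H739.FinalS
import Vale.Agent.P042.H245.Pair2
import Vale.Agent.P042.H245.NumU
import Vale.Agent.P042.H245.PPf
import Vale.Agent.P042.H245.AN6

set_option autoImplicit false

/-!
P042, block [S]: the circle method with sieve weights for one pair of windows and signed weights,
uniform in the content.
-/

namespace Vale.Agent.P042.H245
open Polynomial Finset Vale.Agent.P042.SS Vale.Agent.P042.H74

/-- the exponential sum of a function supported on a window -/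
theorem Fs_eq_Fw (G : ℤ → ℝ) (N' h : ℕ) (y : ℤ) (hy : 0 ≤ y) (hyN : y + h ≤ N')
    (hs : ∀ n, G n ≠ 0 → y < n ∧ n ≤ y + h) (θ : ℝ) : H739.Fs G N' θ = Fw G y h θ := by
  unfold H739.Fs Fw
  symm
  apply Finset.sum_subset
  · intro n hn
    rw [Finset.mem_Ioc] at hn
    rw [Finset.mem_Icc]
    omega
  · intro n _ hn
    have h0 : G n = 0 := by
      by_contra h1
      exact hn (Finset.mem_Ioc.2 (hs n h1))
    rw [h0]
    simp

theorem sq_eq (G : ℤ → ℝ) (N' h : ℕ) (y : ℤ) (hy : 0 ≤ y) (hyN : y + h ≤ N')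
    (hs : ∀ n, G n ≠ 0 → y < n ∧ n ≤ y + h) :
    ∑ n ∈ Ioc y (y + h), G n ^ 2 = ∑ n ∈ Icc (1 : ℤ) N', G n ^ 2 := by
  apply Finset.sum_subset
  · intro n hn
    rw [Finset.mem_Ioc] at hn
    rw [Finset.mem_Icc]
    omega
  · intro n _ hn
    have h0 : G n = 0 := by
      by_contra h1
      exact hn (Finset.mem_Ioc.2 (hs n h1))
    rw [h0]
    norm_num

theorem sqrt_mul_le (a b : ℝ) (ha : 0 ≤ a) (hb : 0 ≤ b) :
    Real.sqrt a * Real.sqrt b ≤ (a + b) / 2 := by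
  have h1 := Real.sq_sqrt ha
  have h2 := Real.sq_sqrt hb
  nlinarith [sq_nonneg (Real.sqrt a - Real.sqrt b)]

/-- **the circle method with sieve weights, uniform in the content, signed weights** -/
theorem anu (C1 : ℝ) (hC1 : 1 ≤ C1) : H739.ANU (GWf C1) := by
  intro k hk
  obtain ⟨E, C, hE, hC, hAN⟩ := anW_pair2 k hk
  have hEr : (1 : ℝ) ≤ E := by exact_mod_cast hE
  refine ⟨1 / (20 * E), by positivity, ?_⟩
  intro thQ hth0 hth1
  obtain ⟨c', κ1, P0, hc', hκ0, hκh, hκth, hP01, hnum⟩ := anu_num k E C C1 thQ hE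
    (by exact_mod_cast hC) hC1 hth0 hth1
  refine ⟨c' / 2, κ1, by positivity, hκ0, max P0 (4 / c'), ?_⟩
  intro P hPm R f N' H h0 z G1 G2 hR hRP hdeg hlead hcont hcoef hN'lo _ h8 h16 hh0 hh hz hzN
    hs1 hs2 hfree
  have hP : P0 ≤ P := (le_max_left _ _).trans hPm
  have hP4 : 4 / c' ≤ P := (le_max_right _ _).trans hPm
  have hRr : (1 : ℝ) ≤ R := by exact_mod_cast hR
  have hPpos : 0 < P := by linarith
  obtain ⟨E0, δ, hE0, hδ, hδ1, n1, n2, n3, n4⟩ := hnum P R hP hRr hRP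
  have ht0 : (0 : ℝ) < 1 / (2 * C1) := by positivity
  have ht1 : (1 : ℝ) / (2 * C1) ≤ 1 := by
    rw [div_le_one (by positivity)]
    linarith
  have hB1 : (1 : ℝ) ≤ Real.exp (thQ * P) := Real.one_le_exp (by positivity)
  have hN' : Real.exp (P / 2) ≤ N' := by
    refine le_trans (Real.exp_le_exp.2 ?_) hN'lo
    nlinarith
  have hPP : ∀ p ∈ PPf C1 f P, p.Prime ∧ k < p ∧ (∃ j : ℕ, 1 ≤ j ∧ ¬ (p : ℤ) ∣ f.coeff j) ∧
      (p : ℝ) ≤ P ^ C1 := by
    intro p hp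
    have h1 := mem_PPf.1 hp
    exact ⟨h1.1, hdeg ▸ h1.2.1, h1.2.2.1, le_of_mem_PPf hPpos.le hp⟩
  have h16r : (N' : ℝ) ≤ 16 * H := by exact_mod_cast h16
  have hH1 : 1 ≤ H := by omega
  have hcoef' : ∀ j : ℕ, |(f.coeff j : ℝ)| ≤ Real.exp (thQ * P) := fun j =>
    (hcoef j).trans (Real.exp_le_exp.2 (mul_le_mul_of_nonneg_right hκth hPpos.le))
  obtain ⟨Q, hQ⟩ : ∃ Q : ℕ, Q = ⌊Real.exp (thQ * P)⌋₊ := ⟨_, rfl⟩
  rw [← hQ] at n1 n2 n3 ⊢
  have hmain := hAN R hR f (PPf C1 f P) N' H h0 Q E0 δ (Real.exp (thQ * P)) z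
    (fun n => G1 n ≠ 0 ∨ G2 n ≠ 0) G1 G2 hdeg hlead hcont hδ hδ1
    hB1 hcoef' (fun p hp => (hPP p hp).1) hE0 hH1 hh h8 h16 n1 (n2.trans hN') (by
      refine n3.trans ?_
      rw [div_le_iff₀ (by norm_num : (0:ℝ) < 16)]
      linarith) hz hzN hfree (fun n hn => Or.inl hn) (fun n hn => Or.inr hn)
  have e1 : ∀ θ : ℝ, H739.Fs G1 N' θ = Fw G1 (z + 3 * H + h0) h0 θ := fun θ =>
    Fs_eq_Fw G1 N' h0 (z + 3 * H + h0) (by positivity) (by linarith)
      (fun n hn => by have := hs1 n hn; constructor <;> linarith [this.1, this.2]) θ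
  have e2 : ∀ θ : ℝ, H739.Fs G2 N' θ = Fw G2 z h0 θ := fun θ =>
    Fs_eq_Fw G2 N' h0 z hz (by omega) hs2 θ
  have q1 := sq_eq G1 N' h0 (z + 3 * H + h0) (by positivity) (by linarith)
      (fun n hn => by have := hs1 n hn; constructor <;> linarith [this.1, this.2])
  have q2 := sq_eq G2 N' h0 z hz (by omega) hs2
  rw [q1, q2] at hmain
  simp only [GWf, e1, e2]
  refine hmain.trans ?_
  set A : ℝ := ∑ n ∈ Icc (1 : ℤ) N', G1 n ^ 2 with hA
  set B : ℝ := ∑ n ∈ Icc (1 : ℤ) N', G2 n ^ 2 with hB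
  have hA0 : 0 ≤ A := Finset.sum_nonneg fun _ _ => sq_nonneg _
  have hB0 : 0 ≤ B := Finset.sum_nonneg fun _ _ => sq_nonneg _
  have htail := tail_le f k (by omega) hdeg (PPf C1 f P) (P ^ C1) (1 / (2 * C1)) E0 hPP
    (by positivity) ht0 ht1 hE0
  have hfac : (E0 : ℝ) * δ + 2 * ∑ S ∈ (PPf C1 f P).powerset.filter (fun S => E0 < ∏ p ∈ S, p),
      ((ZS f S).card : ℝ) / ((∏ p ∈ S, p : ℕ) : ℝ) ≤ Real.exp (-(c' * P)) := by
    refine le_trans ?_ n4
    linarith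
  have h48 : 48 * (H : ℝ) * (Real.sqrt A * Real.sqrt B) ≤ 3 * N' * (A + B) := by
    have h1 : 8 * (H : ℝ) ≤ N' := by
      have : 8 * H ≤ N' := by omega
      exact_mod_cast this
    have h2 := sqrt_mul_le A B hA0 hB0
    calc 48 * (H : ℝ) * (Real.sqrt A * Real.sqrt B) ≤ 48 * (H : ℝ) * ((A + B) / 2) := by gcongr
      _ = 3 * (8 * H) * (A + B) := by ring
      _ ≤ 3 * N' * (A + B) := by gcongr
  have h3 : 3 * Real.exp (-(c' * P)) ≤ Real.exp (-(c' / 2 * P)) := by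
    have h4 : (3 : ℝ) ≤ Real.exp 2 := by
      have := Real.add_one_le_exp (2 : ℝ)
      linarith
    calc 3 * Real.exp (-(c' * P)) ≤ Real.exp 2 * Real.exp (-(c' * P)) := by gcongr
      _ = Real.exp (2 + -(c' * P)) := by rw [← Real.exp_add]
      _ ≤ Real.exp (-(c' / 2 * P)) := by
          refine Real.exp_le_exp.2 ?_
          rw [div_le_iff₀ hc'] at hP4
          linarith
  calc _ ≤ Real.exp (-(c' * P)) * (48 * H * (Real.sqrt A * Real.sqrt B)) :=
        mul_le_mul_of_nonneg_right hfac (by positivity)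
    _ ≤ Real.exp (-(c' * P)) * (3 * N' * (A + B)) :=
        mul_le_mul_of_nonneg_left h48 (Real.exp_pos _).le
    _ = (3 * Real.exp (-(c' * P))) * N' * (A + B) := by ring
    _ ≤ Real.exp (-(c' / 2 * P)) * N' * (A + B) := by gcongr

end Vale.Agent.P042.H245
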